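import Mathlib

/-!
P333, ratio 20/9: choice of the occurrences in a superstring (Step 3).
-/

set_option linter.all false

namespace Vale.Agent.P333.G554

/-- `s` occurs in `Z` at the position `a` (definitionally `Vale.Agent.P333.U.OccAt`). -/
def Oc (Z : ℕ → ℕ) (s : List ℕ) (a : ℕ) : Prop := ∀ i (hi : i < s.length), s[i] = Z (a + i)

theorem Oc.congr {Z : ℕ → ℕ} {s : List ℕ} {a : ℕ} {Z' : ℕ → ℕ} {a' : ℕ} (h : Oc Z s a)
    (he : ∀ i < s.length, Z (a + i) = Z' (a' + i)) : Oc Z' s a' :=
  fun i hi => (h i hi).trans (he i hi)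

/-- An occurrence inside another one gives a factor. -/
theorem Oc.inside {Z : ℕ → ℕ} {s t : List ℕ} {a b : ℕ} (hs : Oc Z s a) (ht : Oc Z t b)
    (h1 : a ≤ b) (h2 : b + t.length ≤ a + s.length) : t <:+: s := by
  have hpre : t = (s.drop (b - a)).take t.length := by
    apply List.ext_getElem
    · simp only [List.length_take, List.length_drop, left_eq_inf]; omega
    · intro i h3 h4
      simp only [List.length_take, List.length_drop, lt_inf_iff] at h4
      rw [List.getElem_take, List.getElem_drop, ht i h3, hs (b - a + i) (by omega)]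
      congr 1
      omega
  rw [hpre]
  exact ((List.take_prefix _ _).isInfix).trans (List.drop_suffix _ _).isInfix

theorem per_mul {Z : ℕ → ℕ} {w : ℕ} (hZ : ∀ k, Z (k + w) = Z k) :
    ∀ m k, Z (k + m * w) = Z k := by
  intro m
  induction m with
  | zero => intro k; simp
  | succ m ih => intro k; rw [Nat.succ_mul, ← Nat.add_assoc, hZ, ih]

theorem per_congr {Z : ℕ → ℕ} {w : ℕ} (hZ : ∀ k, Z (k + w) = Z k) {a b : ℕ}
    (h : a ≡ b [MOD w]) : Z a = Z b := by
  wlog hab : a ≤ b generalizing a b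
  · exact (this h.symm (by omega)).symm
  obtain ⟨m, hm⟩ := (Nat.modEq_iff_dvd' hab).1 h
  have : b = a + m * w := by rw [Nat.mul_comm]; omega
  rw [this, per_mul hZ]

/-- In a primitive periodic word two phases which agree on a full period are equal. -/
theorem phase_eq {Z : ℕ → ℕ} {w : ℕ} (hw : 0 < w) (hZ : ∀ k, Z (k + w) = Z k)
    (hmin : ∀ q, 0 < q → q < w → ¬ ∀ k, Z (k + q) = Z k) {a b : ℕ}
    (h : ∀ i < w, Z (a + i) = Z (b + i)) : a ≡ b [MOD w] := by
  -- agreement everywhere
  have hall : ∀ i, Z (a + i) = Z (b + i) := by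
    intro i
    have h1 : a + i ≡ a + i % w [MOD w] := Nat.ModEq.add_left _ (Nat.mod_modEq _ _).symm
    have h2 : b + i ≡ b + i % w [MOD w] := Nat.ModEq.add_left _ (Nat.mod_modEq _ _).symm
    rw [per_congr hZ h1, per_congr hZ h2, h _ (Nat.mod_lt _ hw)]
  wlog hab : a % w ≤ b % w generalizing a b
  · exact (this (fun i hi => (h i hi).symm) (fun i => (hall i).symm) (by omega)).symm
  by_contra hne
  have hlt : a % w < b % w := lt_of_le_of_ne hab hne
  have hbw := Nat.mod_lt b hw
  refine hmin (b % w - a % w) (by omega) (by omega) fun k => ?_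
  -- write `k` in the form `a % w + i` modulo `w`
  have hA : ∀ i, Z (a % w + i) = Z (b % w + i) := by
    intro i
    rw [per_congr hZ (Nat.ModEq.add_right i (Nat.mod_modEq a w)),
      per_congr hZ (Nat.ModEq.add_right i (Nat.mod_modEq b w)), hall]
  have haw : a % w < w := Nat.mod_lt a hw
  have h3 := hA (k + (w - a % w))
  have e1 : a % w + (k + (w - a % w)) = k + w := by omega
  have e2 : b % w + (k + (w - a % w)) = k + (b % w - a % w) + w := by omega
  rw [e1, e2, hZ, hZ] at h3
  exact h3.symm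

variable {Z : ℕ → ℕ} {w : ℕ}

/-- Geometry of a class of strings on the periodic word `Z` with least period `w`. -/
structure Cls (Z : ℕ → ℕ) (w : ℕ) (F : List ℕ → Prop) (a : List ℕ → ℕ) (nx : List ℕ → List ℕ)
    (v : List ℕ → ℕ) : Prop where
  wpos : 0 < w
  per : ∀ k, Z (k + w) = Z k
  prim : ∀ q, 0 < q → q < w → ¬ ∀ k, Z (k + q) = Z k
  occ : ∀ f, F f → Oc Z f (a f)
  nxF : ∀ f, F f → F (nx f)
  vw : ∀ f, F f → w < v f
  vl : ∀ f, F f → v f < f.length
  nxo : ∀ f, F f → Oc Z (nx f) (a f + (f.length - v f))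
  next : ∀ f g, F f → F g → ∀ x, Oc Z g x → a f < x → a f + (f.length - v f) ≤ x
  nest : ∀ f g, F f → F g → f <:+: g → f = g

variable {F : List ℕ → Prop} {a : List ℕ → ℕ} {nx : List ℕ → List ℕ} {v : List ℕ → ℕ}

theorem Cls.len (h : Cls Z w F a nx v) {f : List ℕ} (hf : F f) : w < f.length :=
  lt_trans (h.vw f hf) (h.vl f hf)

theorem Cls.occ_modEq (h : Cls Z w F a nx v) {f : List ℕ} (hf : F f) {x y : ℕ}
    (hx : Oc Z f x) (hy : Oc Z f y) : x ≡ y [MOD w] :=
  phase_eq h.wpos h.per h.prim fun i hi => by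
    rw [← hx i (lt_trans hi (h.len hf)), ← hy i (lt_trans hi (h.len hf))]

theorem Cls.occ_shift (h : Cls Z w F a nx v) {f : List ℕ} {x y : ℕ} (hx : Oc Z f x)
    (hxy : x ≡ y [MOD w]) : Oc Z f y :=
  hx.congr fun i _ => per_congr h.per (hxy.add_right i)

/-- The successor, at the position next to any occurrence. -/
theorem Cls.nxo' (h : Cls Z w F a nx v) {f : List ℕ} (hf : F f) {x : ℕ} (hx : Oc Z f x) :
    Oc Z (nx f) (x + (f.length - v f)) :=
  h.occ_shift (h.nxo f hf) ((h.occ_modEq hf (h.occ f hf) hx).add_right _)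

theorem Cls.next' (h : Cls Z w F a nx v) {f g : List ℕ} (hf : F f) (hg : F g) {x y : ℕ}
    (hx : Oc Z f x) (hy : Oc Z g y) (hxy : x < y) : x + (f.length - v f) ≤ y := by
  -- shift so that `x` becomes `a f` plus a multiple of `w`
  have h1 : x ≡ a f [MOD w] := h.occ_modEq hf hx (h.occ f hf)
  -- occurrence of `g` at `a f + (y - x)`
  have h2 : y ≡ a f + (y - x) [MOD w] := by
    have : x + (y - x) ≡ a f + (y - x) [MOD w] := h1.add_right _
    rwa [Nat.add_sub_cancel' hxy.le] at this
  have h3 := h.next f g hf hg (a f + (y - x)) (h.occ_shift hy h2) (by omega)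
  omega

/-- If the position is the next one, the string is the successor. -/
theorem Cls.next_eq (h : Cls Z w F a nx v) {f g : List ℕ} (hf : F f) (hg : F g) {x : ℕ}
    (hx : Oc Z f x) (hy : Oc Z g (x + (f.length - v f))) : g = nx f := by
  have h1 := h.nxo' hf hx
  rcases Nat.le_total g.length (nx f).length with hl | hl
  · exact h.nest _ _ hg (h.nxF f hf) (h1.inside hy le_rfl (by omega))
  · exact (h.nest _ _ (h.nxF f hf) hg (hy.inside h1 le_rfl (by omega))).symm

/-- `Tw` agrees with `Z` in the phase `φ` on the interval `[i, j)`, inside `[0, n)`. -/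
def Agree (Z : ℕ → ℕ) (w : ℕ) (Tw : ℕ → ℕ) (n : ℕ) (I : ℕ × ℕ × ℕ) : Prop :=
  I.1 ≤ I.2.1 ∧ I.2.1 ≤ n ∧ I.2.2 < w ∧ ∀ k, I.1 ≤ k → k < I.2.1 → Tw k = Z (k + I.2.2)

/-- `f` occurs in the interval `I` at `p`, in phase. -/
def InI (Z : ℕ → ℕ) (I : ℕ × ℕ × ℕ) (f : List ℕ) (p : ℕ) : Prop :=
  I.1 ≤ p ∧ p + f.length ≤ I.2.1 ∧ Oc Z f (p + I.2.2)

/-- The order of the intervals: longest first. -/
def key (n : ℕ) (I : ℕ × ℕ × ℕ) : ℕ ×ₗ ℕ ×ₗ ℕ := toLex (n - (I.2.1 - I.1), toLex (I.1, I.2.2))

theorem key_le {n : ℕ} {I J : ℕ × ℕ × ℕ} (hI : I.1 ≤ I.2.1) (hJ : J.1 ≤ J.2.1) (hIn : I.2.1 ≤ n)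
    (hJn : J.2.1 ≤ n) (h : key n I ≤ key n J) : J.2.1 - J.1 ≤ I.2.1 - I.1 := by
  have h1 : n - (I.2.1 - I.1) ≤ n - (J.2.1 - J.1) := by
    have := Prod.Lex.monotone_fst _ _ h
    simpa [key] using this
  omega

theorem key_inj {n : ℕ} {I J : ℕ × ℕ × ℕ} (hI : I.1 ≤ I.2.1) (hJ : J.1 ≤ J.2.1) (hIn : I.2.1 ≤ n)
    (hJn : J.2.1 ≤ n) (h : key n I = key n J) : I = J := by
  obtain ⟨i, j, φ⟩ := I
  obtain ⟨i', j', φ'⟩ := J
  simp only [key, EmbeddingLike.apply_eq_iff_eq, Prod.mk.injEq] at h
  obtain ⟨h1, h2, h3⟩ := h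
  simp only at hI hJ hIn hJn
  subst h2 h3
  simp only [Prod.mk.injEq, true_and, and_true]
  omega

/-- Choice of the interval and of the occurrence of a string of the class. -/
theorem exists_best (h : Cls Z w F a nx v) (Tw : ℕ → ℕ) (n : ℕ) {f : List ℕ} (hf : F f)
    (hT : ∃ p, p + f.length ≤ n ∧ Oc Tw f p) :
    ∃ I : ℕ × ℕ × ℕ, ∃ p, Agree Z w Tw n I ∧ InI Z I f p ∧
      (∀ J q, Agree Z w Tw n J → InI Z J f q → key n I ≤ key n J) ∧
      (∀ q, InI Z I f q → p ≤ q) := by
  classical
  -- the set of candidates is finite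
  let s : Finset (ℕ × ℕ × ℕ) := ((Finset.range (n + 1)) ×ˢ (Finset.range (n + 1)) ×ˢ
    (Finset.range w)).filter fun I => Agree Z w Tw n I ∧ ∃ q, InI Z I f q
  have hmem : ∀ I, I ∈ s ↔ Agree Z w Tw n I ∧ ∃ q, InI Z I f q := by
    intro I
    simp only [s, Finset.mem_filter, Finset.mem_product, Finset.mem_range, and_iff_right_iff_imp]
    rintro ⟨⟨h1, h2, h3, -⟩, -⟩
    exact ⟨by omega, by omega, h3⟩
  have hne : s.Nonempty := by
    obtain ⟨p, hp, ho⟩ := hT
    -- phase
    have hcong : ∃ φ, φ < w ∧ p + φ ≡ a f [MOD w] := by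
      refine ⟨(a f + (w * p - p)) % w, Nat.mod_lt _ h.wpos, ?_⟩
      have h1 : p + (a f + (w * p - p)) % w ≡ p + (a f + (w * p - p)) [MOD w] :=
        Nat.ModEq.add_left _ (Nat.mod_modEq _ _)
      have hwp : p ≤ w * p := Nat.le_mul_of_pos_left _ h.wpos
      have h2 : p + (a f + (w * p - p)) = a f + w * p := by omega
      rw [h2] at h1
      refine h1.trans ?_
      exact (Nat.modEq_iff_dvd' (by omega)).2 ⟨p, by omega⟩ |>.symm
    obtain ⟨φ, hφ, hpφ⟩ := hcong
    have hO : Oc Z f (p + φ) := h.occ_shift (h.occ f hf) hpφ.symm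
    refine ⟨(p, p + f.length, φ), (hmem _).2 ⟨⟨by simp, hp, hφ, ?_⟩, p, le_rfl, le_rfl, hO⟩⟩
    intro k hk1 hk2
    simp only at hk1 hk2
    have e1 := ho (k - p) (by omega)
    have e2 := hO (k - p) (by omega)
    rw [e1] at e2
    have e3 : p + (k - p) = k := by omega
    have e4 : p + φ + (k - p) = k + φ := by omega
    rw [e3, e4] at e2
    exact e2
  obtain ⟨I, hI, hmin⟩ := s.exists_min_image (key n) hne
  obtain ⟨hA, hex⟩ := (hmem I).1 hI
  refine ⟨I, Nat.find hex, hA, Nat.find_spec hex, ?_, fun q hq => Nat.find_min' hex hq⟩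
  intro J q hJ hq
  exact hmin J ((hmem J).2 ⟨hJ, q, hq⟩)

/-- Step 3 for one class: occurrences such that two consecutive strings of the class which overlap
by at least `w` are consecutive on `Z`. -/
theorem exists_pos (h : Cls Z w F a nx v) (Tw : ℕ → ℕ) (n : ℕ)
    (hT : ∀ f, F f → ∃ p, p + f.length ≤ n ∧ Oc Tw f p) :
    ∃ pos : List ℕ → ℕ, (∀ f, F f → pos f + f.length ≤ n ∧ Oc Tw f (pos f)) ∧
      ∀ f f', F f → F f' → pos f < pos f' → pos f' + w ≤ pos f + f.length →
        (∀ g, F g → ¬ (pos f < pos g ∧ pos g < pos f')) →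
        f' = nx f ∧ pos f' + v f = pos f + f.length := by
  classical
  have hb := fun f (hf : F f) => exists_best h Tw n hf (hT f hf)
  choose! I pos hA hin hbest hleast using hb
  have hoc : ∀ f, F f → Oc Tw f (pos f) := by
    intro f hf i hi
    obtain ⟨h1, h2, h3⟩ := hin f hf
    rw [h3 i hi, (hA f hf).2.2.2 (pos f + i) (by omega) (by omega)]
    congr 1
    omega
  refine ⟨pos, fun f hf => ⟨?_, hoc f hf⟩, ?_⟩
  · have := (hin f hf).2.1
    have := (hA f hf).2.1
    omega
  intro f f' hf hf' hlt hov hcons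
  obtain ⟨hi1, hj1, ho1⟩ := hin f hf
  obtain ⟨hi2, hj2, ho2⟩ := hin f' hf'
  obtain ⟨hle1, hn1, hφ1, hag1⟩ := hA f hf
  obtain ⟨hle2, hn2, hφ2, hag2⟩ := hA f' hf'
  -- the end of `f'` is beyond the end of `f`
  have hend : pos f + f.length < pos f' + f'.length := by
    by_contra hcon
    have h1 : f' <:+: f := (hoc f hf).inside (hoc f' hf') hlt.le (by omega)
    have h2 := h.nest _ _ hf' hf h1
    subst h2
    omega
  -- same phase
  have hph : (I f).2.2 = (I f').2.2 := by
    have h1 : pos f' + (I f).2.2 ≡ pos f' + (I f').2.2 [MOD w] := by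
      refine phase_eq h.wpos h.per h.prim fun i hi => ?_
      have e1 := hag1 (pos f' + i) (by omega) (by omega)
      have e2 := hag2 (pos f' + i) (by omega) (by omega)
      rw [e1] at e2
      have e3 : pos f' + i + (I f).2.2 = pos f' + (I f).2.2 + i := by omega
      have e4 : pos f' + i + (I f').2.2 = pos f' + (I f').2.2 + i := by omega
      rwa [e3, e4] at e2
    have h2 := Nat.ModEq.add_left_cancel' _ h1
    rwa [Nat.ModEq, Nat.mod_eq_of_lt hφ1, Nat.mod_eq_of_lt hφ2] at h2
  -- the union of the two intervals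
  let U : ℕ × ℕ × ℕ := (min (I f).1 (I f').1, max (I f).2.1 (I f').2.1, (I f).2.2)
  have hU : Agree Z w Tw n U := by
    refine ⟨by simp only [U]; omega, by simp only [U]; omega, hφ1, ?_⟩
    intro k hk1 hk2
    simp only [U] at hk1 hk2 ⊢
    by_cases hk : (I f).1 ≤ k ∧ k < (I f).2.1
    · exact hag1 k hk.1 hk.2
    · rw [hph]
      exact hag2 k (by omega) (by omega)
  have hUI : key n (I f) ≤ key n U := hbest f hf U (pos f) hU ⟨by simp only [U]; omega,
    by simp only [U]; omega, ho1⟩
  have hUI' : key n (I f') ≤ key n U := hbest f' hf' U (pos f') hU ⟨by simp only [U]; omega,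
    by simp only [U]; omega, by simp only [U]; rw [hph]; exact ho2⟩
  have hl1 := key_le hle1 hU.1 hn1 hU.2.1 hUI
  have hl2 := key_le hle2 hU.1 hn2 hU.2.1 hUI'
  simp only [U] at hl1 hl2
  have hII : I f = I f' := by
    refine Prod.ext (by omega) (Prod.ext (by omega) hph)
  -- the successor
  set J := I f with hJ
  rw [← hII] at hi2 hj2 ho2
  set d := f.length - v f with hd
  have hvl := h.vl f hf
  have hvw := h.vw f hf
  have hn := h.nxF f hf
  have hon : Oc Z (nx f) (pos f + d + J.2.2) := by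
    have := h.nxo' hf ho1
    rwa [← hd, Nat.add_right_comm] at this
  have hnext : pos f + d ≤ pos f' := by
    have := h.next' hf hf' ho1 ho2 (by omega)
    omega
  rcases Nat.eq_or_lt_of_le hnext with heq | hlt2
  · have : f' = nx f := by
      refine h.next_eq hf hf' ho1 ?_
      rw [← hd, Nat.add_right_comm, heq]
      exact ho2
    exact ⟨this, by omega⟩
  exfalso
  -- the end of the successor
  have hend2 : pos f + d + (nx f).length < pos f' + f'.length := by
    by_contra hcon
    have h1 : f' <:+: nx f := hon.inside ho2 (by omega) (by omega)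
    have h2 := h.nest _ _ hf' hn h1
    rw [← h2] at hcon
    omega
  have hinn : InI Z J (nx f) (pos f + d) := ⟨by omega, by omega, hon⟩
  have hkey := hbest (nx f) hn J (pos f + d) (hA f hf) hinn
  obtain ⟨hi3, hj3, ho3⟩ := hin (nx f) hn
  obtain ⟨hle3, hn3, hφ3, hag3⟩ := hA (nx f) hn
  by_cases hsame : I (nx f) = J
  · -- case (i)
    rw [hsame] at hi3 hj3 ho3
    have hle : pos (nx f) ≤ pos f + d := hleast (nx f) hn _ (by rw [hsame]; exact hinn)
    have hmod : pos (nx f) + J.2.2 ≡ pos f + d + J.2.2 [MOD w] := h.occ_modEq hn ho3 hon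
    have hmod' : pos (nx f) ≡ pos f + d [MOD w] := Nat.ModEq.add_right_cancel' _ hmod
    rcases Nat.eq_or_lt_of_le hle with heq | hlt3
    · exact hcons (nx f) hn ⟨by omega, by omega⟩
    · have hge : pos (nx f) + w ≤ pos f + d := by
        obtain ⟨m, hm⟩ := (Nat.modEq_iff_dvd' hle).1 hmod'
        rcases Nat.eq_zero_or_pos m with h0 | h0
        · rw [h0, Nat.mul_zero] at hm
          omega
        · have := Nat.le_mul_of_pos_right w h0
          omega
      have hin' : InI Z J f' (pos f' - w) := by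
        refine ⟨by omega, by omega, ?_⟩
        refine h.occ_shift ho2 ?_
        have : pos f' + J.2.2 = pos f' - w + J.2.2 + w := by omega
        rw [this]
        exact Nat.add_modEq_right
      have := hleast f' hf' _ (by rw [← hII]; exact hin')
      omega
  · -- case (ii)
    set K := I (nx f) with hK
    have hKlt : key n K < key n J := lt_of_le_of_ne hkey fun he =>
      hsame (key_inj hle3 hle1 hn3 hn1 he)
    have hlen := key_le hle3 hle1 hn3 hn1 hkey
    -- `f` does not fit in `K`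
    have hnf : ∀ q, ¬ InI Z K f q := fun q hq =>
      absurd (hbest f hf K q (hA (nx f) hn) hq) (not_le.2 hKlt)
    have hnf' : ∀ q, ¬ InI Z K f' q := fun q hq =>
      absurd (hbest f' hf' K q (hA (nx f) hn) hq) (not_le.2 (by rw [← hII]; exact hKlt))
    set q := pos (nx f) with hq
    -- phases: position of `nx f` in `Z` for the two intervals
    have hmod : q + K.2.2 ≡ pos f + d + J.2.2 [MOD w] := h.occ_modEq hn ho3 hon
    have h1 : q < K.1 + d := by
      by_contra hcon
      refine hnf (q - d) ⟨by omega, ?_, ?_⟩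
      · have := h.vl (nx f) hn
        -- `q - d + |f| = q + v f ≤ q + |nx f|`
        by_contra hcon2
        -- `nx f` would be inside `f`
        have h5 : nx f <:+: f := ho1.inside (by
          have : pos f + d + J.2.2 = pos f + J.2.2 + d := by omega
          rw [this] at hon
          exact hon) (by omega) (by omega)
        have h6 := h.nest _ _ hn hf h5
        rw [h6] at hj3
        omega
      · refine h.occ_shift ho1 ?_
        have h5 : q - d + K.2.2 + d ≡ pos f + J.2.2 + d [MOD w] := by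
          have e1 : q - d + K.2.2 + d = q + K.2.2 := by omega
          have e2 : pos f + J.2.2 + d = pos f + d + J.2.2 := by omega
          rw [e1, e2]
          exact hmod
        exact (Nat.ModEq.add_right_cancel' _ h5).symm
    have h2 : K.2.1 < q + (pos f' - (pos f + d)) + f'.length := by
      by_contra hcon
      refine hnf' (q + (pos f' - (pos f + d))) ⟨by omega, by omega, ?_⟩
      refine h.occ_shift ho2 ?_
      have e1 : q + (pos f' - (pos f + d)) + K.2.2 = q + K.2.2 + (pos f' - (pos f + d)) := by omega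
      have e2 : pos f' + J.2.2 = pos f + d + J.2.2 + (pos f' - (pos f + d)) := by omega
      rw [e1, e2]
      exact (hmod.add_right _).symm
    omega

end Vale.Agent.P333.G554
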